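import Vale.Agent.H80.GP.Strip
import Vale.Agent.H97.HD.Crescent

/-!
# Products of the two half coins and the two `(1, 2)`-coins: the common roof (support for P058)

Four families of weighted single-kink structures are available, with kink values (as rational
functions of the weight `mu`, evaluated at a complex conjugate `z` of `mu`) tending to
* `-z` (swapped half coin; needs `0 < z.re`),
* `-(1 - z)` (half coin; needs `z.re < 1`),
* `-1 / (3 - 2 z)` (`(1, 2)`-coin; needs `‖z - 1‖ < 1`),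
* `-1 / (1 + 2 z)` (swapped `(1, 2)`-coin; needs `‖z‖ < 1`)
as the order `2 ^ k` of the cyclic group grows (Vale/Agent/H97/HD/Half.lean, Crescent.lean).  Kink
values in `(-1, 1)` are closed under products (`wach_mul`, Vale/Agent/H80/GP/Strip.lean).  Hence
(`wach_zero_of_roof`): if for some exponents `a b c d : ℕ` every complex root `z` of the minimal
polynomial of `mu` satisfies the conditions needed by the coins that are used and
`‖z‖ ^ a * ‖z - 1‖ ^ b < ‖2 z - 3‖ ^ c * ‖2 z + 1‖ ^ d`, then there is a fair structure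
`WAch mu 0 p`.
-/

namespace Vale.Agent.H80.GP

open Polynomial IntermediateField Vale.Agent.H16.Kite Vale.Agent.H16.GL

/-- A power of a kink value in `(-1, 1)`: the value `1` with weight `0`, or again a kink value
in `(-1, 1)`. -/
theorem go_pow {mu n p : ℝ} (h : WAch mu n p) (hn : |n| < 1) (e : ℕ) :
    (e = 0 ∧ n ^ e = 1) ∨ (0 < e ∧ |n ^ e| < 1 ∧ ∃ p' : ℝ, WAch mu (n ^ e) p') := by
  rcases e with _ | e
  · exact Or.inl ⟨rfl, pow_zero n⟩
  · exact Or.inr ⟨Nat.succ_pos e, gp_abs_pow hn e, wach_pow h hn e⟩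

theorem go_mul {mu x y : ℝ} {s t : ℕ}
    (hx : (s = 0 ∧ x = 1) ∨ (0 < s ∧ |x| < 1 ∧ ∃ p : ℝ, WAch mu x p))
    (hy : (t = 0 ∧ y = 1) ∨ (0 < t ∧ |y| < 1 ∧ ∃ p : ℝ, WAch mu y p)) :
    (s + t = 0 ∧ x * y = 1) ∨ (0 < s + t ∧ |x * y| < 1 ∧ ∃ p : ℝ, WAch mu (x * y) p) := by
  rcases hx with ⟨hs, rfl⟩ | ⟨hs, ax, px, hpx⟩
  · rcases hy with ⟨ht, rfl⟩ | ⟨ht, ay, py, hpy⟩
    · exact Or.inl ⟨by omega, by norm_num⟩
    · exact Or.inr ⟨by omega, by rwa [one_mul], py, by rwa [one_mul]⟩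
  · rcases hy with ⟨ht, rfl⟩ | ⟨ht, ay, py, hpy⟩
    · exact Or.inr ⟨by omega, by rwa [mul_one], px, by rwa [mul_one]⟩
    · refine Or.inr ⟨by omega, ?_, wach_mul hpx hpy ax ay⟩
      rw [abs_mul]
      exact mul_lt_one_of_nonneg_of_lt_one_left (abs_nonneg _) ax ay.le

/-- The `(1, 2)`-coin of Vale/Agent/H97/HD/Crescent.lean with its kink value written out. -/
theorem roof_coin (mu : ℝ) (hm0 : 0 < mu) (hm1 : mu < 1) (k : ℕ) (hk : 2 ≤ k) :
    |(-(1 + (1 - mu) ^ (2 ^ k) + 2 * ((1 - mu) ^ (2 ^ k) * (1 - mu))) /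
        (1 + 2 * (1 - mu) + (1 - mu) ^ (2 ^ k)))| < 1 ∧
      ∃ p : ℝ, WAch mu (-(1 + (1 - mu) ^ (2 ^ k) + 2 * ((1 - mu) ^ (2 ^ k) * (1 - mu))) /
        (1 + 2 * (1 - mu) + (1 - mu) ^ (2 ^ k))) p := by
  obtain ⟨n, hn⟩ : ∃ n : ℕ, n = 2 ^ k := ⟨_, rfl⟩
  obtain ⟨q, hq⟩ : ∃ q : ℝ, q = 1 - mu := ⟨_, rfl⟩
  have hq0 : 0 < q := by rw [hq]; linarith
  have hq1 : q < 1 := by rw [hq]; linarith
  have hn0 : n ≠ 0 := by rw [hn]; positivity
  obtain ⟨T, hT⟩ : ∃ T : ℝ, T = q ^ n := ⟨_, rfl⟩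
  have hT0 : 0 < T := by rw [hT]; exact pow_pos hq0 n
  have hT1 : T < 1 := by rw [hT]; exact pow_lt_one₀ hq0.le hq1 hn0
  obtain ⟨D, hD⟩ : ∃ D : ℝ, D = 1 + 2 * q + T := ⟨_, rfl⟩
  have hD0 : 0 < D := by rw [hD]; positivity
  obtain ⟨Nm, hNm⟩ : ∃ Nm : ℝ, Nm = 1 + T + 2 * (T * q) := ⟨_, rfl⟩
  have hNm0 : 0 < Nm := by rw [hNm]; positivity
  have hNmD : Nm < D := by
    rw [hNm, hD]
    nlinarith
  have hcoin : ∃ p : ℝ, WAch mu (-(1 + T) / D + -(2 * q) / D * (1 - mu) ^ (2 ^ k)) p := by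
    refine Vale.Agent.H97.HD.crescent_coin mu (-(1 + T) / D) (-(2 * q) / D) k hk ?_ ?_
    · rw [hD]
      field_simp
      ring
    · rw [← hq, ← hn, ← hT]
      field_simp
      rw [hD, hq]
      ring
  obtain ⟨p₀, hp₀⟩ := hcoin
  have hnu : -(1 + T) / D + -(2 * q) / D * (1 - mu) ^ (2 ^ k) = -Nm / D := by
    rw [← hq, ← hn, ← hT, hNm]
    field_simp
    ring
  rw [hnu] at hp₀
  rw [← hn, ← hq, ← hT, ← hNm, ← hD]
  refine ⟨?_, p₀, hp₀⟩
  rw [abs_lt]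
  constructor
  · rw [lt_div_iff₀ hD0]
    linarith
  · have hneg : -Nm / D < 0 := div_neg_of_neg_of_pos (by linarith) hD0
    linarith

/-- The swapped `(1, 2)`-coin. -/
theorem roof_coin' (mu : ℝ) (hm0 : 0 < mu) (hm1 : mu < 1) (k : ℕ) (hk : 2 ≤ k) :
    |(-(1 + mu ^ (2 ^ k) + 2 * (mu ^ (2 ^ k) * mu)) / (1 + 2 * mu + mu ^ (2 ^ k)))| < 1 ∧
      ∃ p : ℝ, WAch mu (-(1 + mu ^ (2 ^ k) + 2 * (mu ^ (2 ^ k) * mu)) /
        (1 + 2 * mu + mu ^ (2 ^ k))) p := by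
  obtain ⟨h1, p, hp⟩ := roof_coin (1 - mu) (by linarith) (by linarith) k hk
  have e : (1 : ℝ) - (1 - mu) = mu := by ring
  rw [e] at h1 hp
  exact ⟨h1, wach_swap hp⟩

theorem roof_tendsto_pow {f : ℕ → ℝ} {L : ℝ} (e : ℕ)
    (h : e ≠ 0 → Filter.Tendsto f Filter.atTop (nhds L)) :
    Filter.Tendsto (fun m => f m ^ e) Filter.atTop (nhds (L ^ e)) := by
  rcases Nat.eq_zero_or_pos e with rfl | he
  · simp only [pow_zero]
    exact tendsto_const_nhds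
  · exact (h (by omega)).pow e

/-- For some `k ≥ 2` the product of the four coin values is in the open unit disc at every
conjugate. -/
theorem roof_exists_pow (mu : ℝ) (halg : IsAlgebraic ℚ mu) (a b c d : ℕ)
    (h : ∀ z : ℂ, aeval z (minpoly ℚ mu) = 0 →
      (a ≠ 0 → 0 < z.re) ∧ (b ≠ 0 → z.re < 1) ∧ (c ≠ 0 → ‖z - 1‖ < 1) ∧ (d ≠ 0 → ‖z‖ < 1) ∧
        ‖z‖ ^ a * ‖z - 1‖ ^ b < ‖2 * z - 3‖ ^ c * ‖2 * z + 1‖ ^ d) :
    ∃ k : ℕ, 2 ≤ k ∧ ∀ z : ℂ, aeval z (minpoly ℚ mu) = 0 →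
      ‖(1 - z) * ((1 - z) / (1 + z)) ^ (2 ^ k - 1) - z‖ ^ a *
          ‖z * (z / (2 - z)) ^ (2 ^ k - 1) - (1 - z)‖ ^ b *
          ‖-(1 + (1 - z) ^ (2 ^ k - 1 + 1) + 2 * ((1 - z) ^ (2 ^ k - 1 + 1) * (1 - z))) /
            (1 + 2 * (1 - z) + (1 - z) ^ (2 ^ k - 1 + 1))‖ ^ c *
          ‖-(1 + z ^ (2 ^ k - 1 + 1) + 2 * (z ^ (2 ^ k - 1 + 1) * z)) /
            (1 + 2 * z + z ^ (2 ^ k - 1 + 1))‖ ^ d < 1 := by
  have hne : minpoly ℚ mu ≠ 0 := minpoly.ne_zero halg.isIntegral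
  have hfin : ((minpoly ℚ mu).rootSet ℂ).Finite := rootSet_finite _ ℂ
  have hev : ∀ z ∈ (minpoly ℚ mu).rootSet ℂ, ∀ᶠ m : ℕ in Filter.atTop,
      ‖(1 - z) * ((1 - z) / (1 + z)) ^ m - z‖ ^ a *
          ‖z * (z / (2 - z)) ^ m - (1 - z)‖ ^ b *
          ‖-(1 + (1 - z) ^ (m + 1) + 2 * ((1 - z) ^ (m + 1) * (1 - z))) /
            (1 + 2 * (1 - z) + (1 - z) ^ (m + 1))‖ ^ c *
          ‖-(1 + z ^ (m + 1) + 2 * (z ^ (m + 1) * z)) /
            (1 + 2 * z + z ^ (m + 1))‖ ^ d < 1 := by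
    intro z hz
    rw [mem_rootSet] at hz
    obtain ⟨h1, h2, h3, h4, h5⟩ := h z hz.2
    have hL0 : 0 ≤ ‖z‖ ^ a * ‖z - 1‖ ^ b := by positivity
    have hXpos : 0 < ‖2 * z - 3‖ ^ c * ‖2 * z + 1‖ ^ d := lt_of_le_of_lt hL0 h5
    have hA : ‖2 * z - 3‖ ^ c ≠ 0 := by
      intro h0
      rw [h0, zero_mul] at hXpos
      exact lt_irrefl _ hXpos
    have hB : ‖2 * z + 1‖ ^ d ≠ 0 := by
      intro h0
      rw [h0, mul_zero] at hXpos
      exact lt_irrefl _ hXpos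
    have tQ : a ≠ 0 → Filter.Tendsto
        (fun m : ℕ => ‖(1 - z) * ((1 - z) / (1 + z)) ^ m - z‖) Filter.atTop (nhds ‖z‖) := by
      intro ha
      have h1' := h1 ha
      have hsq1 : ‖1 - z‖ ^ 2 < ‖1 + z‖ ^ 2 := by
        rw [Complex.sq_norm, Complex.sq_norm, Complex.normSq_apply, Complex.normSq_apply]
        simp only [Complex.sub_re, Complex.sub_im, Complex.add_re, Complex.add_im,
          Complex.one_re, Complex.one_im]
        nlinarith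
      have hlt1 : ‖1 - z‖ < ‖1 + z‖ := lt_of_pow_lt_pow_left₀ 2 (norm_nonneg _) hsq1
      have hpos1 : 0 < ‖1 + z‖ := lt_of_le_of_lt (norm_nonneg _) hlt1
      have hr1 : ‖(1 - z) / (1 + z)‖ < 1 := by
        rw [norm_div]
        exact (div_lt_one hpos1).mpr hlt1
      have t1 : Filter.Tendsto (fun m : ℕ => (1 - z) * ((1 - z) / (1 + z)) ^ m - z)
          Filter.atTop (nhds ((1 - z) * 0 - z)) :=
        ((tendsto_pow_atTop_nhds_zero_of_norm_lt_one hr1).const_mul _).sub_const _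
      have e1 : ‖(1 - z) * 0 - z‖ = ‖z‖ := by rw [mul_zero, zero_sub, norm_neg]
      rw [← e1]
      exact t1.norm
    have tP : b ≠ 0 → Filter.Tendsto
        (fun m : ℕ => ‖z * (z / (2 - z)) ^ m - (1 - z)‖) Filter.atTop (nhds ‖z - 1‖) := by
      intro hb
      have h2' := h2 hb
      have hsq2 : ‖z‖ ^ 2 < ‖2 - z‖ ^ 2 := by
        rw [Complex.sq_norm, Complex.sq_norm, Complex.normSq_apply, Complex.normSq_apply]
        simp only [Complex.sub_re, Complex.sub_im, Complex.re_ofNat, Complex.im_ofNat]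
        nlinarith
      have hlt2 : ‖z‖ < ‖2 - z‖ := lt_of_pow_lt_pow_left₀ 2 (norm_nonneg _) hsq2
      have hpos2 : 0 < ‖2 - z‖ := lt_of_le_of_lt (norm_nonneg _) hlt2
      have hr2 : ‖z / (2 - z)‖ < 1 := by
        rw [norm_div]
        exact (div_lt_one hpos2).mpr hlt2
      have t2 : Filter.Tendsto (fun m : ℕ => z * (z / (2 - z)) ^ m - (1 - z)) Filter.atTop
          (nhds (z * 0 - (1 - z))) :=
        ((tendsto_pow_atTop_nhds_zero_of_norm_lt_one hr2).const_mul _).sub_const _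
      have e2 : ‖z * 0 - (1 - z)‖ = ‖z - 1‖ := by rw [mul_zero, zero_sub, neg_sub]
      rw [← e2]
      exact t2.norm
    have tC : c ≠ 0 → Filter.Tendsto
        (fun m : ℕ => ‖-(1 + (1 - z) ^ (m + 1) + 2 * ((1 - z) ^ (m + 1) * (1 - z))) /
          (1 + 2 * (1 - z) + (1 - z) ^ (m + 1))‖) Filter.atTop (nhds (‖2 * z - 3‖⁻¹)) := by
      intro hc
      have hq1 : ‖1 - z‖ < 1 := by
        rw [norm_sub_rev]
        exact h3 hc
      have hne3 : (2 * z - 3 : ℂ) ≠ 0 := by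
        intro h0
        apply hA
        rw [h0, norm_zero, zero_pow hc]
      have tp : Filter.Tendsto (fun m : ℕ => (1 - z) ^ (m + 1)) Filter.atTop (nhds 0) :=
        (tendsto_pow_atTop_nhds_zero_of_norm_lt_one hq1).comp (Filter.tendsto_add_atTop_nat 1)
      have tnum : Filter.Tendsto
          (fun m : ℕ => -(1 + (1 - z) ^ (m + 1) + 2 * ((1 - z) ^ (m + 1) * (1 - z))))
          Filter.atTop (nhds (-(1 + 0 + 2 * (0 * (1 - z))))) :=
        ((tendsto_const_nhds.add tp).add ((tp.mul_const _).const_mul _)).neg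
      have tden : Filter.Tendsto (fun m : ℕ => 1 + 2 * (1 - z) + (1 - z) ^ (m + 1))
          Filter.atTop (nhds (1 + 2 * (1 - z) + 0)) :=
        tendsto_const_nhds.add tp
      have hden0 : (1 + 2 * (1 - z) + 0 : ℂ) ≠ 0 := by
        intro h0
        apply hne3
        linear_combination (-1 : ℂ) * h0
      have t := (tnum.div tden hden0).norm
      have e : ‖-(1 + 0 + 2 * (0 * (1 - z))) / (1 + 2 * (1 - z) + 0)‖ = ‖2 * z - 3‖⁻¹ := by
        have e1 : (-(1 + 0 + 2 * (0 * (1 - z))) : ℂ) = -1 := by ring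
        have e2 : (1 + 2 * (1 - z) + 0 : ℂ) = -(2 * z - 3) := by ring
        rw [e1, e2, norm_div, norm_neg, norm_neg, norm_one, one_div]
      rw [← e]
      exact t
    have tD : d ≠ 0 → Filter.Tendsto
        (fun m : ℕ => ‖-(1 + z ^ (m + 1) + 2 * (z ^ (m + 1) * z)) /
          (1 + 2 * z + z ^ (m + 1))‖) Filter.atTop (nhds (‖2 * z + 1‖⁻¹)) := by
      intro hd
      have hq1 : ‖z‖ < 1 := h4 hd
      have hne3 : (2 * z + 1 : ℂ) ≠ 0 := by
        intro h0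
        apply hB
        rw [h0, norm_zero, zero_pow hd]
      have tp : Filter.Tendsto (fun m : ℕ => z ^ (m + 1)) Filter.atTop (nhds 0) :=
        (tendsto_pow_atTop_nhds_zero_of_norm_lt_one hq1).comp (Filter.tendsto_add_atTop_nat 1)
      have tnum : Filter.Tendsto
          (fun m : ℕ => -(1 + z ^ (m + 1) + 2 * (z ^ (m + 1) * z)))
          Filter.atTop (nhds (-(1 + 0 + 2 * (0 * z)))) :=
        ((tendsto_const_nhds.add tp).add ((tp.mul_const _).const_mul _)).neg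
      have tden : Filter.Tendsto (fun m : ℕ => 1 + 2 * z + z ^ (m + 1))
          Filter.atTop (nhds (1 + 2 * z + 0)) :=
        tendsto_const_nhds.add tp
      have hden0 : (1 + 2 * z + 0 : ℂ) ≠ 0 := by
        intro h0
        apply hne3
        linear_combination h0
      have t := (tnum.div tden hden0).norm
      have e : ‖-(1 + 0 + 2 * (0 * z)) / (1 + 2 * z + 0)‖ = ‖2 * z + 1‖⁻¹ := by
        have e1 : (-(1 + 0 + 2 * (0 * z)) : ℂ) = -1 := by ring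
        have e2 : (1 + 2 * z + 0 : ℂ) = 2 * z + 1 := by ring
        rw [e1, e2, norm_div, norm_neg, norm_one, one_div]
      rw [← e]
      exact t
    have t := (((roof_tendsto_pow a tQ).mul (roof_tendsto_pow b tP)).mul
      (roof_tendsto_pow c tC)).mul (roof_tendsto_pow d tD)
    have hlim : ‖z‖ ^ a * ‖z - 1‖ ^ b * (‖2 * z - 3‖⁻¹) ^ c * (‖2 * z + 1‖⁻¹) ^ d < 1 := by
      rw [inv_pow, inv_pow]
      have e : ‖z‖ ^ a * ‖z - 1‖ ^ b * (‖2 * z - 3‖ ^ c)⁻¹ * (‖2 * z + 1‖ ^ d)⁻¹ =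
          (‖z‖ ^ a * ‖z - 1‖ ^ b) / (‖2 * z - 3‖ ^ c * ‖2 * z + 1‖ ^ d) := by
        field_simp
      rw [e, div_lt_one hXpos]
      exact h5
    exact (tendsto_order.1 t).2 1 hlim
  have hall := (Filter.eventually_all_finite hfin).mpr hev
  obtain ⟨m₀, hm₀⟩ := Filter.eventually_atTop.mp hall
  refine ⟨m₀ + 2, by omega, fun z hz =>
    hm₀ (2 ^ (m₀ + 2) - 1) ?_ z (mem_rootSet.mpr ⟨hne, hz⟩)⟩
  have h3 := Nat.lt_two_pow_self (n := m₀ + 2)
  omega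

/-- **The common roof.**  Fair steps for every algebraic weight `mu` in `(0, 1)` such that, for
some exponents `a b c d`, every complex root `z` of its minimal polynomial satisfies
`‖z‖ ^ a * ‖z - 1‖ ^ b < ‖2 z - 3‖ ^ c * ‖2 z + 1‖ ^ d` together with the conditions of the
coins used (`0 < z.re` if `a ≠ 0`, `z.re < 1` if `b ≠ 0`, `‖z - 1‖ < 1` if `c ≠ 0`, `‖z‖ < 1` if
`d ≠ 0`). -/
theorem wach_zero_of_roof (mu : ℝ) (hm0 : 0 < mu) (hm1 : mu < 1) (halg : IsAlgebraic ℚ mu)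
    (a b c d : ℕ)
    (h : ∀ z : ℂ, aeval z (minpoly ℚ mu) = 0 →
      (a ≠ 0 → 0 < z.re) ∧ (b ≠ 0 → z.re < 1) ∧ (c ≠ 0 → ‖z - 1‖ < 1) ∧ (d ≠ 0 → ‖z‖ < 1) ∧
        ‖z‖ ^ a * ‖z - 1‖ ^ b < ‖2 * z - 3‖ ^ c * ‖2 * z + 1‖ ^ d) :
    ∃ p : ℝ, WAch mu 0 p := by
  have habcd : 0 < a + b + c + d := by
    by_contra hcon
    have ha : a = 0 := by omega
    have hb : b = 0 := by omega
    have hc : c = 0 := by omega
    have hd : d = 0 := by omega
    subst ha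
    subst hb
    subst hc
    subst hd
    have hroot : aeval (mu : ℂ) (minpoly ℚ mu) = 0 := by
      have h0 := aeval_algebraMap_apply (A := ℝ) ℂ mu (minpoly ℚ mu)
      rw [minpoly.aeval, map_zero] at h0
      exact h0
    have h3 := (h (mu : ℂ) hroot).2.2.2.2
    simp at h3
  obtain ⟨k, hk, hpow⟩ := roof_exists_pow mu halg a b c d h
  obtain ⟨m, hm⟩ : ∃ m : ℕ, m = 2 ^ k - 1 := ⟨_, rfl⟩
  rw [← hm] at hpow
  have hmk : 2 ^ k = m + 1 := by
    have h1 := Nat.one_le_two_pow (n := k)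
    omega
  obtain ⟨nP, hnP⟩ : ∃ n : ℝ, n = mu * (mu / (2 - mu)) ^ m - (1 - mu) := ⟨_, rfl⟩
  obtain ⟨nQ, hnQ⟩ : ∃ n : ℝ, n = (1 - mu) * ((1 - mu) / (1 + mu)) ^ m - mu := ⟨_, rfl⟩
  obtain ⟨nC, hnC⟩ : ∃ n : ℝ, n =
      -(1 + (1 - mu) ^ (m + 1) + 2 * ((1 - mu) ^ (m + 1) * (1 - mu))) /
        (1 + 2 * (1 - mu) + (1 - mu) ^ (m + 1)) := ⟨_, rfl⟩
  obtain ⟨nD, hnD⟩ : ∃ n : ℝ, n =
      -(1 + mu ^ (m + 1) + 2 * (mu ^ (m + 1) * mu)) / (1 + 2 * mu + mu ^ (m + 1)) := ⟨_, rfl⟩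
  have h2m : 0 < 2 - mu := by linarith
  have h1m : 0 < 1 + mu := by linarith
  have hrP0 : 0 < mu / (2 - mu) := by positivity
  have hrP1 : mu / (2 - mu) < 1 := by
    rw [div_lt_one h2m]
    linarith
  have hrQ0 : 0 < (1 - mu) / (1 + mu) := by
    apply div_pos <;> linarith
  have hrQ1 : (1 - mu) / (1 + mu) < 1 := by
    rw [div_lt_one h1m]
    linarith
  have hPm0 : 0 < (mu / (2 - mu)) ^ m := pow_pos hrP0 m
  have hPm1 : (mu / (2 - mu)) ^ m ≤ 1 := pow_le_one₀ hrP0.le hrP1.le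
  have hQm0 : 0 < ((1 - mu) / (1 + mu)) ^ m := pow_pos hrQ0 m
  have hQm1 : ((1 - mu) / (1 + mu)) ^ m ≤ 1 := pow_le_one₀ hrQ0.le hrQ1.le
  have aP : |nP| < 1 := by
    rw [abs_lt, hnP]
    constructor <;> nlinarith
  have aQ : |nQ| < 1 := by
    rw [abs_lt, hnQ]
    constructor <;> nlinarith
  obtain ⟨pP, hP⟩ := Vale.Agent.H97.HD.half_coin mu h2m.ne' k
  rw [← hm, ← hnP] at hP
  have h2m' : (2 : ℝ) - (1 - mu) ≠ 0 := by
    have h0 : (0 : ℝ) < 2 - (1 - mu) := by linarith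
    exact h0.ne'
  obtain ⟨pQ', hQ'⟩ := Vale.Agent.H97.HD.half_coin (1 - mu) h2m' k
  have e1 : (2 : ℝ) - (1 - mu) = 1 + mu := by ring
  have e2 : (1 : ℝ) - (1 - mu) = mu := by ring
  rw [← hm, e1, e2, ← hnQ] at hQ'
  obtain ⟨pQ, hQ⟩ := wach_swap hQ'
  obtain ⟨aC, pC, hC⟩ := roof_coin mu hm0 hm1 k hk
  rw [hmk, ← hnC] at aC hC
  obtain ⟨aD, pD, hD⟩ := roof_coin' mu hm0 hm1 k hk
  rw [hmk, ← hnD] at aD hD
  have hGO := go_mul (go_mul (go_mul (go_pow hQ aQ a) (go_pow hP aP b)) (go_pow hC aC c))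
    (go_pow hD aD d)
  rcases hGO with ⟨h0, -⟩ | ⟨-, aN, pN, hN⟩
  · omega
  have hval := gp_wval hN aN
  have hNne : 1 - nQ ^ a * nP ^ b * nC ^ c * nD ^ d ≠ 0 := by
    have h1 := abs_lt.mp aN
    have h0 : 0 < 1 - nQ ^ a * nP ^ b * nC ^ c * nD ^ d := by linarith [h1.2]
    exact h0.ne'
  -- the same expressions in the field `ℚ(mu)`
  have hint : IsIntegral ℚ mu := halg.isIntegral
  let K := ℚ⟮mu⟯
  let g : K := AdjoinSimple.gen ℚ mu
  have hg : ((g : K) : ℝ) = mu := AdjoinSimple.coe_gen ℚ mu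
  let nPK : K := g * (g / (1 + 1 - g)) ^ m - (1 - g)
  let nQK : K := (1 - g) * ((1 - g) / (1 + g)) ^ m - g
  let nCK : K := -(1 + (1 - g) ^ (m + 1) + (1 + 1) * ((1 - g) ^ (m + 1) * (1 - g))) /
    (1 + (1 + 1) * (1 - g) + (1 - g) ^ (m + 1))
  let nDK : K := -(1 + g ^ (m + 1) + (1 + 1) * (g ^ (m + 1) * g)) /
    (1 + (1 + 1) * g + g ^ (m + 1))
  have hnPK : ((nPK : K) : ℝ) = nP := by
    have e : ((nPK : K) : ℝ) = mu * (mu / (1 + 1 - mu)) ^ m - (1 - mu) := by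
      simp [nPK, hg]
    rw [e, one_add_one_eq_two, hnP]
  have hnQK : ((nQK : K) : ℝ) = nQ := by
    have e : ((nQK : K) : ℝ) = (1 - mu) * ((1 - mu) / (1 + mu)) ^ m - mu := by
      simp [nQK, hg]
    rw [e, hnQ]
  have hnCK : ((nCK : K) : ℝ) = nC := by
    have e : ((nCK : K) : ℝ) =
        -(1 + (1 - mu) ^ (m + 1) + (1 + 1) * ((1 - mu) ^ (m + 1) * (1 - mu))) /
          (1 + (1 + 1) * (1 - mu) + (1 - mu) ^ (m + 1)) := by
      simp [nCK, hg]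
    rw [e, one_add_one_eq_two, hnC]
  have hnDK : ((nDK : K) : ℝ) = nD := by
    have e : ((nDK : K) : ℝ) =
        -(1 + mu ^ (m + 1) + (1 + 1) * (mu ^ (m + 1) * mu)) /
          (1 + (1 + 1) * mu + mu ^ (m + 1)) := by
      simp [nDK, hg]
    rw [e, one_add_one_eq_two, hnD]
  let NK : K := nQK ^ a * nPK ^ b * nCK ^ c * nDK ^ d
  have hNK : ((NK : K) : ℝ) = nQ ^ a * nP ^ b * nC ^ c * nD ^ d := by
    simp [NK, hnPK, hnQK, hnCK, hnDK]
  have hNK0 : (1 - NK : K) ≠ 0 := by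
    intro h0
    apply hNne
    have h1 := congrArg (fun x : K => (x : ℝ)) h0
    simpa [hNK] using h1
  let wK : K := (1 + NK) / (1 - NK)
  have hwK : ((wK : K) : ℝ) =
      (1 + nQ ^ a * nP ^ b * nC ^ c * nD ^ d) / (1 - nQ ^ a * nP ^ b * nC ^ c * nD ^ d) := by
    simp [wK, hNK]
  have hKalg : Algebra.IsAlgebraic ℚ K := isAlgebraic_adjoin_simple hint
  have hxint : IsIntegral ℚ ((wK : K) : ℝ) :=
    (Algebra.IsIntegral.isIntegral wK).map (IntermediateField.val K)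
  rw [← hwK] at hval
  refine wach_zero_of_hur_base mu ((wK : K) : ℝ) hval (minpoly ℚ ((wK : K) : ℝ))
    (minpoly.monic hxint) (minpoly.aeval ℚ _) ?_
  intro z hz
  obtain ⟨ψ, hψ, hroot⟩ := gp_root_lift mu halg wK z hz
  have hz' := hpow (ψ g) hroot
  have h2 : (1 - NK) * wK = 1 + NK := by
    simp only [wK]
    field_simp
  have h3 := congrArg ψ h2
  simp only [map_mul, map_sub, map_add, map_one, map_pow, map_div₀, map_neg, NK, nPK, nQK, nCK,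
    nDK] at h3
  rw [one_add_one_eq_two] at h3
  rw [hψ] at h3
  refine cayley_re_pos _ z ?_ h3
  simp only [norm_mul, norm_pow]
  exact hz'

end Vale.Agent.H80.GP
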