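import Vale.Agent.H97.HD.Half

/-!
# Products of kink values and fair steps for conjugates in the strip (support for P058)

The kink values `nu` in `(-1, 1)` of the weighted single-kink structures `WAch mu nu p` are
closed under products (`wach_mul`): in the coordinate `w = (1 + nu) / (1 - nu)` the product is
`1 / (w₁ + w₂) + 1 / (1 / w₁ + 1 / w₂)`, and the values `w` are closed under sums and inverses
(Vale/Agent/H16/GL/Closure.lean).

Consequence (`wach_zero_of_strip`).  Let `mu` in `(0, 1)` be algebraic and `a b : ℕ`.  If every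
complex root `z` of the minimal polynomial of `mu` satisfies `0 < z.re`, `z.re < 1` and
`‖z‖ ^ a * ‖z - 1‖ ^ b < 1`, then there is a fair structure `WAch mu 0 p`.  Proof: the two half
coins of Vale/Agent/H97/HD/Half.lean have kink values `nP = mu * (mu / (2 - mu)) ^ m - (1 - mu)`
and `nQ = (1 - mu) * ((1 - mu) / (1 + mu)) ^ m - mu`; at a conjugate `z` in the strip they tend
to `-(1 - z)` and `-z` as `m` grows, so the product `nQ ^ a * nP ^ b` has all its conjugates in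
the open unit disc for `m` large, and `wach_zero_of_hur_base` applies.  The conjugates may be
mixed: some with `‖z‖ < 1 < ‖z - 1‖`, others with `‖z - 1‖ < 1 < ‖z‖`.
-/

namespace Vale.Agent.H80.GP

open Polynomial IntermediateField Vale.Agent.H16.Kite Vale.Agent.H16.GL

theorem gp_cay (n : ℝ) (hn : 1 - n ≠ 0) :
    ((1 + n) / (1 - n) - 1) / ((1 + n) / (1 - n) + 1) = n := by
  field_simp
  ring

theorem gp_alg (w₁ w₂ : ℝ) (h1 : 0 < w₁) (h2 : 0 < w₂) :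
    (1 / (w₁ + w₂) + 1 / (1 / w₁ + 1 / w₂) - 1) / (1 / (w₁ + w₂) + 1 / (1 / w₁ + 1 / w₂) + 1) =
      (w₁ - 1) / (w₁ + 1) * ((w₂ - 1) / (w₂ + 1)) := by
  have hs : w₁ + w₂ ≠ 0 := by positivity
  have h1' : w₁ ≠ 0 := h1.ne'
  have h2' : w₂ ≠ 0 := h2.ne'
  have e1 : 1 / (w₁ + w₂) + 1 / (1 / w₁ + 1 / w₂) = (1 + w₁ * w₂) / (w₁ + w₂) := by
    field_simp
    ring
  have hp1 : w₁ + 1 ≠ 0 := by positivity
  have hp2 : w₂ + 1 ≠ 0 := by positivity
  have hd : (1 + w₁ * w₂) / (w₁ + w₂) + 1 ≠ 0 := by positivity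
  rw [e1, div_mul_div_comm, div_eq_div_iff hd (mul_ne_zero hp1 hp2)]
  field_simp
  ring

/-- The Cayley coordinate of a kink value in `(-1, 1)`. -/
theorem gp_wval {mu n p : ℝ} (h : WAch mu n p) (hn : |n| < 1) :
    WVal mu ((1 + n) / (1 - n)) := by
  have h1 := abs_lt.mp hn
  have hpos : 0 < 1 - n := by linarith [h1.2]
  refine ⟨div_pos (by linarith [h1.1]) hpos, p, ?_⟩
  rw [gp_cay n hpos.ne']
  exact h

/-- **Products of kink values are kink values.** -/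
theorem wach_mul {mu n₁ n₂ p₁ p₂ : ℝ} (h₁ : WAch mu n₁ p₁) (h₂ : WAch mu n₂ p₂)
    (a₁ : |n₁| < 1) (a₂ : |n₂| < 1) : ∃ p : ℝ, WAch mu (n₁ * n₂) p := by
  have b₁ := abs_lt.mp a₁
  have b₂ := abs_lt.mp a₂
  have c₁ : 0 < 1 - n₁ := by linarith [b₁.2]
  have c₂ : 0 < 1 - n₂ := by linarith [b₂.2]
  have hw₁ := gp_wval h₁ a₁
  have hw₂ := gp_wval h₂ a₂
  have hX := wval_add (wval_inv (wval_add hw₁ hw₂))
    (wval_inv (wval_add (wval_inv hw₁) (wval_inv hw₂)))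
  obtain ⟨-, p, hp⟩ := hX
  refine ⟨p, ?_⟩
  rw [gp_alg _ _ hw₁.1 hw₂.1, gp_cay n₁ c₁.ne', gp_cay n₂ c₂.ne'] at hp
  exact hp

theorem gp_abs_pow {n : ℝ} (hn : |n| < 1) (k : ℕ) : |n ^ (k + 1)| < 1 := by
  rw [abs_pow]
  exact pow_lt_one₀ (abs_nonneg n) hn (by omega)

theorem wach_pow {mu n p : ℝ} (h : WAch mu n p) (hn : |n| < 1) (a : ℕ) :
    ∃ p' : ℝ, WAch mu (n ^ (a + 1)) p' := by
  induction a with
  | zero => exact ⟨p, by simpa using h⟩
  | succ k ih =>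
    obtain ⟨p', hp'⟩ := ih
    obtain ⟨q, hq⟩ := wach_mul hp' h (gp_abs_pow hn k) hn
    exact ⟨q, by rw [pow_succ]; exact hq⟩

theorem wach_pow_mul {mu n₁ n₂ p₁ p₂ : ℝ} (h₁ : WAch mu n₁ p₁) (h₂ : WAch mu n₂ p₂)
    (a₁ : |n₁| < 1) (a₂ : |n₂| < 1) (a b : ℕ) (hab : 0 < a + b) :
    |n₁ ^ a * n₂ ^ b| < 1 ∧ ∃ p : ℝ, WAch mu (n₁ ^ a * n₂ ^ b) p := by
  rcases a with _ | a
  · rcases b with _ | b
    · omega
    · simp only [pow_zero, one_mul]
      exact ⟨gp_abs_pow a₂ b, wach_pow h₂ a₂ b⟩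
  · rcases b with _ | b
    · simp only [pow_zero, mul_one]
      exact ⟨gp_abs_pow a₁ a, wach_pow h₁ a₁ a⟩
    · obtain ⟨r₁, s₁⟩ := wach_pow h₁ a₁ a
      obtain ⟨r₂, s₂⟩ := wach_pow h₂ a₂ b
      refine ⟨?_, wach_mul s₁ s₂ (gp_abs_pow a₁ a) (gp_abs_pow a₂ b)⟩
      rw [abs_mul]
      exact mul_lt_one_of_nonneg_of_lt_one_left (abs_nonneg _) (gp_abs_pow a₁ a)
        (gp_abs_pow a₂ b).le

/-- Every complex root of the minimal polynomial of an element of `ℚ(mu)` is its image under an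
embedding of `ℚ(mu)` into `ℂ`, and the embedding sends `mu` to a root of its minimal
polynomial. -/
theorem gp_root_lift (mu : ℝ) (halg : IsAlgebraic ℚ mu) (wK : ℚ⟮mu⟯) (z : ℂ)
    (hz : aeval z (minpoly ℚ ((wK : ℚ⟮mu⟯) : ℝ)) = 0) :
    ∃ ψ : ℚ⟮mu⟯ →ₐ[ℚ] ℂ, ψ wK = z ∧
      aeval (ψ (AdjoinSimple.gen ℚ mu)) (minpoly ℚ mu) = 0 := by
  have hint : IsIntegral ℚ mu := halg.isIntegral
  have hKalg : Algebra.IsAlgebraic ℚ ℚ⟮mu⟯ := isAlgebraic_adjoin_simple hint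
  have hmin : minpoly ℚ ((wK : ℚ⟮mu⟯) : ℝ) = minpoly ℚ wK :=
    minpoly.algebraMap_eq (algebraMap ℚ⟮mu⟯ ℝ).injective wK
  have hzroot : z ∈ (minpoly ℚ wK).rootSet ℂ := by
    rw [mem_rootSet]
    refine ⟨minpoly.ne_zero (Algebra.IsIntegral.isIntegral wK), ?_⟩
    rw [← hmin]
    exact hz
  rw [← Algebra.IsAlgebraic.range_eval_eq_rootSet_minpoly (F := ℚ) (K := ℚ⟮mu⟯) ℂ wK] at hzroot
  obtain ⟨ψ, hψ⟩ := hzroot
  refine ⟨ψ, hψ, ?_⟩
  have h2 : minpoly ℚ (algebraMap ℚ⟮mu⟯ ℝ (AdjoinSimple.gen ℚ mu)) =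
      minpoly ℚ (AdjoinSimple.gen ℚ mu) :=
    minpoly.algebraMap_eq (algebraMap ℚ⟮mu⟯ ℝ).injective _
  rw [AdjoinSimple.algebraMap_gen] at h2
  rw [h2, aeval_algHom_apply, minpoly.aeval, map_zero]

/-- For some `k` the product of the two half-coin values is in the open unit disc at every
conjugate. -/
theorem gp_exists_pow (mu : ℝ) (halg : IsAlgebraic ℚ mu) (a b : ℕ)
    (h : ∀ z : ℂ, aeval z (minpoly ℚ mu) = 0 →
      0 < z.re ∧ z.re < 1 ∧ ‖z‖ ^ a * ‖z - 1‖ ^ b < 1) :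
    ∃ k : ℕ, ∀ z : ℂ, aeval z (minpoly ℚ mu) = 0 →
      ‖(1 - z) * ((1 - z) / (1 + z)) ^ (2 ^ k - 1) - z‖ ^ a *
        ‖z * (z / (2 - z)) ^ (2 ^ k - 1) - (1 - z)‖ ^ b < 1 := by
  have hne : minpoly ℚ mu ≠ 0 := minpoly.ne_zero halg.isIntegral
  have hfin : ((minpoly ℚ mu).rootSet ℂ).Finite := rootSet_finite _ ℂ
  have hev : ∀ z ∈ (minpoly ℚ mu).rootSet ℂ, ∀ᶠ m : ℕ in Filter.atTop,
      ‖(1 - z) * ((1 - z) / (1 + z)) ^ m - z‖ ^ a *
        ‖z * (z / (2 - z)) ^ m - (1 - z)‖ ^ b < 1 := by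
    intro z hz
    rw [mem_rootSet] at hz
    obtain ⟨h1, h2, h3⟩ := h z hz.2
    have hsq1 : ‖1 - z‖ ^ 2 < ‖1 + z‖ ^ 2 := by
      rw [Complex.sq_norm, Complex.sq_norm, Complex.normSq_apply, Complex.normSq_apply]
      simp only [Complex.sub_re, Complex.sub_im, Complex.add_re, Complex.add_im, Complex.one_re,
        Complex.one_im]
      nlinarith
    have hlt1 : ‖1 - z‖ < ‖1 + z‖ := lt_of_pow_lt_pow_left₀ 2 (norm_nonneg _) hsq1
    have hpos1 : 0 < ‖1 + z‖ := lt_of_le_of_lt (norm_nonneg _) hlt1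
    have hr1 : ‖(1 - z) / (1 + z)‖ < 1 := by
      rw [norm_div]
      exact (div_lt_one hpos1).mpr hlt1
    have hsq2 : ‖z‖ ^ 2 < ‖2 - z‖ ^ 2 := by
      rw [Complex.sq_norm, Complex.sq_norm, Complex.normSq_apply, Complex.normSq_apply]
      simp only [Complex.sub_re, Complex.sub_im, Complex.re_ofNat, Complex.im_ofNat]
      nlinarith
    have hlt2 : ‖z‖ < ‖2 - z‖ := lt_of_pow_lt_pow_left₀ 2 (norm_nonneg _) hsq2
    have hpos2 : 0 < ‖2 - z‖ := lt_of_le_of_lt (norm_nonneg _) hlt2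
    have hr2 : ‖z / (2 - z)‖ < 1 := by
      rw [norm_div]
      exact (div_lt_one hpos2).mpr hlt2
    have t1 : Filter.Tendsto (fun m : ℕ => (1 - z) * ((1 - z) / (1 + z)) ^ m - z) Filter.atTop
        (nhds ((1 - z) * 0 - z)) :=
      ((tendsto_pow_atTop_nhds_zero_of_norm_lt_one hr1).const_mul _).sub_const _
    have t2 : Filter.Tendsto (fun m : ℕ => z * (z / (2 - z)) ^ m - (1 - z)) Filter.atTop
        (nhds (z * 0 - (1 - z))) :=
      ((tendsto_pow_atTop_nhds_zero_of_norm_lt_one hr2).const_mul _).sub_const _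
    have t3 := (t1.norm.pow a).mul (t2.norm.pow b)
    have e1 : ‖(1 - z) * 0 - z‖ = ‖z‖ := by rw [mul_zero, zero_sub, norm_neg]
    have e2 : ‖z * 0 - (1 - z)‖ = ‖z - 1‖ := by rw [mul_zero, zero_sub, neg_sub]
    rw [e1, e2] at t3
    exact (tendsto_order.1 t3).2 1 h3
  have hall := (Filter.eventually_all_finite hfin).mpr hev
  obtain ⟨m₀, hm₀⟩ := Filter.eventually_atTop.mp hall
  refine ⟨m₀ + 1, fun z hz => hm₀ (2 ^ (m₀ + 1) - 1) ?_ z (mem_rootSet.mpr ⟨hne, hz⟩)⟩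
  have h3 := Nat.lt_two_pow_self (n := m₀ + 1)
  omega

/-- **Fair steps for every algebraic weight in `(0, 1)` all of whose conjugates `z` lie in the
strip `0 < z.re < 1` and satisfy `‖z‖ ^ a * ‖z - 1‖ ^ b < 1` for one pair of exponents.** -/
theorem wach_zero_of_strip (mu : ℝ) (hm0 : 0 < mu) (hm1 : mu < 1) (halg : IsAlgebraic ℚ mu)
    (a b : ℕ)
    (h : ∀ z : ℂ, aeval z (minpoly ℚ mu) = 0 →
      0 < z.re ∧ z.re < 1 ∧ ‖z‖ ^ a * ‖z - 1‖ ^ b < 1) :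
    ∃ p : ℝ, WAch mu 0 p := by
  have hab : 0 < a + b := by
    by_contra hcon
    have ha : a = 0 := by omega
    have hb : b = 0 := by omega
    subst ha
    subst hb
    have hroot : aeval (mu : ℂ) (minpoly ℚ mu) = 0 := by
      have h0 := aeval_algebraMap_apply (A := ℝ) ℂ mu (minpoly ℚ mu)
      rw [minpoly.aeval, map_zero] at h0
      exact h0
    have h3 := (h (mu : ℂ) hroot).2.2
    simp at h3
  obtain ⟨k, hpow⟩ := gp_exists_pow mu halg a b h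
  obtain ⟨m, hm⟩ : ∃ m : ℕ, m = 2 ^ k - 1 := ⟨_, rfl⟩
  rw [← hm] at hpow
  obtain ⟨nP, hnP⟩ : ∃ n : ℝ, n = mu * (mu / (2 - mu)) ^ m - (1 - mu) := ⟨_, rfl⟩
  obtain ⟨nQ, hnQ⟩ : ∃ n : ℝ, n = (1 - mu) * ((1 - mu) / (1 + mu)) ^ m - mu := ⟨_, rfl⟩
  have h2m : 0 < 2 - mu := by linarith
  have h1m : 0 < 1 + mu := by linarith
  have hrP0 : 0 < mu / (2 - mu) := by positivity
  have hrP1 : mu / (2 - mu) < 1 := by
    rw [div_lt_one h2m]
    linarith
  have hrQ0 : 0 < (1 - mu) / (1 + mu) := by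
    apply div_pos <;> linarith
  have hrQ1 : (1 - mu) / (1 + mu) < 1 := by
    rw [div_lt_one h1m]
    linarith
  have hPm0 : 0 < (mu / (2 - mu)) ^ m := pow_pos hrP0 m
  have hPm1 : (mu / (2 - mu)) ^ m ≤ 1 := pow_le_one₀ hrP0.le hrP1.le
  have hQm0 : 0 < ((1 - mu) / (1 + mu)) ^ m := pow_pos hrQ0 m
  have hQm1 : ((1 - mu) / (1 + mu)) ^ m ≤ 1 := pow_le_one₀ hrQ0.le hrQ1.le
  have aP : |nP| < 1 := by
    rw [abs_lt, hnP]
    constructor <;> nlinarith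
  have aQ : |nQ| < 1 := by
    rw [abs_lt, hnQ]
    constructor <;> nlinarith
  obtain ⟨pP, hP⟩ := Vale.Agent.H97.HD.half_coin mu h2m.ne' k
  rw [← hm, ← hnP] at hP
  have h2m' : (2 : ℝ) - (1 - mu) ≠ 0 := by
    have : (0 : ℝ) < 2 - (1 - mu) := by linarith
    exact this.ne'
  obtain ⟨pQ', hQ'⟩ := Vale.Agent.H97.HD.half_coin (1 - mu) h2m' k
  have e1 : (2 : ℝ) - (1 - mu) = 1 + mu := by ring
  have e2 : (1 : ℝ) - (1 - mu) = mu := by ring
  rw [← hm, e1, e2, ← hnQ] at hQ'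
  obtain ⟨pQ, hQ⟩ := wach_swap hQ'
  obtain ⟨aN, pN, hN⟩ := wach_pow_mul hQ hP aQ aP a b hab
  have hval := gp_wval hN aN
  have hNne : 1 - nQ ^ a * nP ^ b ≠ 0 := by
    have := abs_lt.mp aN
    have h0 : 0 < 1 - nQ ^ a * nP ^ b := by linarith [this.2]
    exact h0.ne'
  -- the same expressions in the field `ℚ(mu)`
  have hint : IsIntegral ℚ mu := halg.isIntegral
  let K := ℚ⟮mu⟯
  let g : K := AdjoinSimple.gen ℚ mu
  have hg : ((g : K) : ℝ) = mu := AdjoinSimple.coe_gen ℚ mu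
  let nPK : K := g * (g / (1 + 1 - g)) ^ m - (1 - g)
  let nQK : K := (1 - g) * ((1 - g) / (1 + g)) ^ m - g
  have hnPK : ((nPK : K) : ℝ) = nP := by
    have e : ((nPK : K) : ℝ) = mu * (mu / (1 + 1 - mu)) ^ m - (1 - mu) := by
      simp [nPK, hg]
    rw [e, one_add_one_eq_two, hnP]
  have hnQK : ((nQK : K) : ℝ) = nQ := by
    have e : ((nQK : K) : ℝ) = (1 - mu) * ((1 - mu) / (1 + mu)) ^ m - mu := by
      simp [nQK, hg]
    rw [e, hnQ]
  let NK : K := nQK ^ a * nPK ^ b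
  have hNK : ((NK : K) : ℝ) = nQ ^ a * nP ^ b := by
    simp [NK, hnPK, hnQK]
  have hNK0 : (1 - NK : K) ≠ 0 := by
    intro h0
    apply hNne
    have := congrArg (fun x : K => (x : ℝ)) h0
    simpa [hNK] using this
  let wK : K := (1 + NK) / (1 - NK)
  have hwK : ((wK : K) : ℝ) = (1 + nQ ^ a * nP ^ b) / (1 - nQ ^ a * nP ^ b) := by
    simp [wK, hNK]
  have hKalg : Algebra.IsAlgebraic ℚ K := isAlgebraic_adjoin_simple hint
  have hxint : IsIntegral ℚ ((wK : K) : ℝ) :=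
    (Algebra.IsIntegral.isIntegral wK).map (IntermediateField.val K)
  rw [← hwK] at hval
  refine wach_zero_of_hur_base mu ((wK : K) : ℝ) hval (minpoly ℚ ((wK : K) : ℝ))
    (minpoly.monic hxint) (minpoly.aeval ℚ _) ?_
  intro z hz
  obtain ⟨ψ, hψ, hroot⟩ := gp_root_lift mu halg wK z hz
  have hz' := hpow (ψ g) hroot
  have h2 : (1 - NK) * wK = 1 + NK := by
    simp only [wK]
    field_simp
  have h3 := congrArg ψ h2
  simp only [map_mul, map_sub, map_add, map_one, map_pow, map_div₀, NK, nPK, nQK] at h3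
  rw [one_add_one_eq_two] at h3
  rw [hψ] at h3
  refine cayley_re_pos _ z ?_ h3
  rw [norm_mul, norm_pow, norm_pow]
  exact hz'

end Vale.Agent.H80.GP
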